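import Vale.Agent.P275.H495.SqA

/-!
# The constant terms of the square of a cuspidal character
-/

set_option linter.style.haveILetI false
set_option linter.unusedSectionVars false

namespace Vale.Agent.P275.H495

open scoped BigOperators MatrixGroups
open Module Matrix Vale.Agent.P275.H85 Vale.Agent.P275.H341

section gen

variable {G : Type} [Group G] [Fintype G]

/-- the dual of an irreducible character -/
theorem irr_dual {χ : G → ℂ} (h : IsIrrChar χ) : IsIrrChar (fun g => χ g⁻¹) := by
  classical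
  apply Pos.irr_of_norm_one
  · refine ⟨fun g k => ?_, fun χ' h' => ?_⟩
    · show χ (k * g * k⁻¹)⁻¹ = χ g⁻¹
      rw [← h.isClass g⁻¹ k]
      congr 1
      group
    · obtain ⟨π, rfl⟩ := h
      obtain ⟨π', rfl⟩ := h'
      refine ⟨Module.finrank ℂ (Representation.IntertwiningMap (Representation.trivial ℂ G ℂ)
        (Representation.tprod π.ρ π'.ρ)), ?_⟩
      rw [← ip_character_nat (Representation.trivial ℂ G ℂ) (Representation.tprod π.ρ π'.ρ)]
      unfold ip
      congr 1
      rw [← Equiv.sum_comp (Equiv.inv G)]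
      apply Finset.sum_congr rfl
      intro x _
      rw [Representation.char_tensor]
      have h1 : (Representation.trivial ℂ G ℂ).character x⁻¹ = 1 := by
        unfold Representation.character
        have : Representation.trivial ℂ G ℂ x⁻¹ = LinearMap.id := rfl
        rw [this, LinearMap.trace_id]
        simp
      rw [h1, mul_one]
      simp only [Equiv.inv_apply, inv_inv]
      rfl
  · have h1 := ip_irr h h
    rw [if_pos rfl] at h1
    rw [← h1]
    unfold ip
    congr 1
    rw [← Equiv.sum_comp (Equiv.inv G)]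
    simp

theorem exists_common {f g : G → ℂ} (hf : IsClass f) (h : ip f g ≠ 0) :
    ∃ χ, IsIrrChar χ ∧ ip f χ ≠ 0 ∧ ip g χ ≠ 0 := by
  rw [ip_expand f g hf] at h
  obtain ⟨χ, hχ, h1⟩ := Finset.exists_ne_zero_of_sum_ne_zero h
  exact ⟨χ, mem_irrSet.mp hχ, left_ne_zero_of_mul h1, right_ne_zero_of_mul h1⟩

end gen

variable {F : Type} [Field F] [Fintype F] [DecidableEq F]

theorem dual_eq_rs (c : Cu F) : (fun g => c.χ g⁻¹) = rs c.s (dl c.f) := by
  funext g
  rw [rs_dl, c.rs_f]

/-- the dual of a cuspidal irreducible character -/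
noncomputable def dualC (c : Cu F) : Cu F where
  s := c.s
  χ := fun g => c.χ g⁻¹
  pos := c.pos
  irr := irr_dual c.irr
  cusp := by
    rw [dual_eq_rs, toCF_rs' (inv_dl c.inv) (supp_dl c.supp)]
    exact cusp_dl c.cusp

theorem dualC_s (c : Cu F) : (dualC c).s = c.s := rfl

theorem dualC_f (c : Cu F) : (dualC c).f = dl c.f := by
  show toCF (fun g => c.χ g⁻¹) = dl c.f
  rw [dual_eq_rs, toCF_rs' (inv_dl c.inv) (supp_dl c.supp)]

theorem dl_dualC (c : Cu F) : dl (dualC c).f = c.f := by
  rw [dualC_f]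
  exact CF_ext (dl_dl c.supp)

theorem dl_sq (c : Cu F) : dl (mul (dualC c).f (dualC c).f) = mul c.f c.f := by
  have h : dl (mul (dualC c).f (dualC c).f) = mul (dl (dualC c).f) (dl (dualC c).f) :=
    CF_ext (fun V _ _ _ φ => dl_mul _ _ V φ)
  rw [h, dl_dualC]

theorem meet_sq (c : Cu F) {e m : ℕ} (hn : m + e = c.s + c.s) (he : 0 < e) (hm : 0 < m)
    {α : GL (Fin e) F → ℂ} {β : GL (Fin m) F → ℂ} (hα : IsIrrChar α) (hβ : IsIrrChar β)
    (h : ip (rs (c.s + c.s) (mul (toCF α) (toCF β))) (rs (c.s + c.s) (mul c.f c.f)) ≠ 0) :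
    toCF α = c.f ∧ toCF β = c.f := by
  obtain ⟨χ, hχ, h1, h2⟩ := exists_common
    (isClass_rs (inv_mul (inv_toCF hα.isClass) (inv_toCF hβ.isClass))) h
  exact factors hn he hm hα hβ hχ h1 h2

theorem size_of_toCF {e s : ℕ} {α : GL (Fin e) F → ℂ} (hα : IsIrrChar α)
    {f : CF F} (hs : Supp s f) (h : toCF α = f) : e = s := by
  by_contra hc
  have h1 : α 1 = 0 := by
    rw [← rs_toCF hα.isClass, h]
    unfold rs
    exact hs _ _ (Or.inl (by simpa using hc))
  exact irr_one_ne hα h1

theorem del_isClass_left {f : CF F} (hI : IsoInv f) {e m : ℕ} (B : GL (Fin m) F) :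
    IsClass (fun A : GL (Fin e) F => del f (Par.tl A) (Par.tl B)) := by
  intro g h
  symm
  exact del_iso hI (LinearEquiv.refl F _) (lq h) (fun _ => rfl) (fun v => lq_conj h g v)

theorem del_isClass_right {f : CF F} (hI : IsoInv f) {e m : ℕ} (A : GL (Fin e) F) :
    IsClass (fun B : GL (Fin m) F => del f (Par.tl A) (Par.tl B)) := by
  intro g h
  symm
  exact del_iso hI (lq h) (LinearEquiv.refl F _) (fun v => lq_conj h g v) (fun _ => rfl)

/-- pairing with a product, in terms of the constant term -/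
theorem ip_del {e m n : ℕ} (hn : m + e = n) {α : GL (Fin e) F → ℂ} {β : GL (Fin m) F → ℂ}
    (hα : IsClass α) (hβ : IsClass β) {h : CF F} (hh : IsoInv h) :
    ∑ B : GL (Fin m) F, β B * ∑ A : GL (Fin e) F, α A * del (dl h) (Par.tl A) (Par.tl B)
      = Fintype.card (GL (Fin e) F) * (Fintype.card (GL (Fin m) F) *
        ip (rs n (mul (toCF α) (toCF β))) (rs n h)) := by
  rw [ip_mul (inv_toCF hα) (inv_toCF hβ) hh (supp_toCF α) (supp_toCF β) hn, rs_toCF hβ]
  have c1 : (Fintype.card (GL (Fin e) F) : ℂ) ≠ 0 := Irr.card_ne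
  have c2 : (Fintype.card (GL (Fin m) F) : ℂ) ≠ 0 := Irr.card_ne
  have h1 : ∀ B : GL (Fin m) F, ∑ A : GL (Fin e) F, α A * del (dl h) (Par.tl A) (Par.tl B)
      = rs m (Dop (Fin e → F) (toCF α) (dl h)) B := fun B => (sum_mul_del hα (dl h) B).symm
  simp only [h1]
  field_simp

/-- the constant terms of `c^2` of the wrong size vanish -/
theorem del_sq_zero (c : Cu F) {e m : ℕ} (hn : m + e = c.s + c.s) (he : 0 < e) (hm : 0 < m)
    (hes : e ≠ c.s) (A : GL (Fin e) F) (B : GL (Fin m) F) :
    del (mul c.f c.f) (Par.tl A) (Par.tl B) = 0 := by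
  have hI : IsoInv (mul c.f c.f) := inv_mul c.inv c.inv
  apply del_zero_of hI
  intro α hα
  apply complete' _ (isClass_rs (inv_Dop hI))
  intro β hβ
  have h1 := ip_del (n := c.s + c.s) hn hα.isClass hβ.isClass
    (inv_mul (dualC c).inv (dualC c).inv)
  rw [dl_sq] at h1
  have h2 : ip (rs (c.s + c.s) (mul (toCF α) (toCF β)))
      (rs (c.s + c.s) (mul (dualC c).f (dualC c).f)) = 0 := by
    by_contra hc
    have h3 := meet_sq (dualC c) hn he hm hα hβ hc
    exact hes (size_of_toCF hα (dualC c).supp h3.1)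
  rw [h2, mul_zero, mul_zero] at h1
  rw [← h1]
  apply Finset.sum_congr rfl
  intro B _
  rw [sum_mul_del hα.isClass, mul_comm]

theorem toCF_dual (c : Cu F) {α : GL (Fin c.s) F → ℂ} (hα : IsClass α) :
    toCF α = (dualC c).f ↔ α = fun g => c.χ g⁻¹ := by
  constructor
  · intro h
    rw [← rs_toCF hα, h, dualC_f, dual_eq_rs]
  · intro h
    rw [h]
    rfl

/-- the constant term of `c^2` -/
theorem del_sq (c : Cu F) (A B : GL (Fin c.s) F) :
    del (mul c.f c.f) (Par.tl A) (Par.tl B) = 2 * (c.χ A * c.χ B) := by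
  classical
  have hI : IsoInv (mul c.f c.f) := inv_mul c.inv c.inv
  have cG : (Fintype.card (GL (Fin c.s) F) : ℂ) ≠ 0 := Irr.card_ne
  obtain ⟨χd, hχd⟩ : ∃ χd : GL (Fin c.s) F → ℂ, χd = fun g => c.χ g⁻¹ := ⟨_, rfl⟩
  have hd : IsIrrChar χd := by rw [hχd]; exact irr_dual c.irr
  have hsum : ∀ α : GL (Fin c.s) F → ℂ, IsIrrChar α →
      ∑ A, α A * c.χ A = if α = χd then (Fintype.card (GL (Fin c.s) F) : ℂ) else 0 := by
    intro α hα
    have h1 := ip_irr hα hd
    have h2 : ∑ A, α A * c.χ A = (Fintype.card (GL (Fin c.s) F) : ℂ) * ip α χd := by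
      unfold ip
      rw [← mul_assoc, mul_inv_cancel₀ cG, one_mul, hχd]
      apply Finset.sum_congr rfl
      intro x _
      dsimp only
      rw [inv_inv]
    rw [h2]
    by_cases h4 : α = χd
    · rw [if_pos h4] at h1 ⊢
      rw [h1, mul_one]
    · rw [if_neg h4] at h1 ⊢
      rw [h1, mul_zero]
  have hpair : ∀ α β : GL (Fin c.s) F → ℂ, IsIrrChar α → IsIrrChar β →
      ip (rs (c.s + c.s) (mul (toCF α) (toCF β)))
        (rs (c.s + c.s) (mul (dualC c).f (dualC c).f))
      = if α = χd then (if β = χd then 2 else 0) else 0 := by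
    intro α β hα hβ
    by_cases hc : ip (rs (c.s + c.s) (mul (toCF α) (toCF β)))
        (rs (c.s + c.s) (mul (dualC c).f (dualC c).f)) = 0
    · rw [hc]
      by_cases h1 : α = χd
      · by_cases h2 : β = χd
        · exfalso
          have h3 := ip_sq (dualC c)
          rw [(toCF_dual c hα.isClass).mpr (h1.trans hχd),
            (toCF_dual c hβ.isClass).mpr (h2.trans hχd)] at hc
          have h4 : (2 : ℂ) = 0 := by
            rw [← h3]
            exact hc
          norm_num at h4
        · rw [if_pos h1, if_neg h2]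
      · rw [if_neg h1]
    · obtain ⟨h1, h2⟩ := meet_sq (dualC c) rfl (dualC c).pos (dualC c).pos hα hβ hc
      have h3 : α = χd := hχd.symm ▸ (toCF_dual c hα.isClass).mp h1
      have h4 : β = χd := hχd.symm ▸ (toCF_dual c hβ.isClass).mp h2
      rw [if_pos h3, if_pos h4, (toCF_dual c hα.isClass).mpr (h3.trans hχd),
        (toCF_dual c hβ.isClass).mpr (h4.trans hχd)]
      exact ip_sq (dualC c)
  have h1 : ∀ α : GL (Fin c.s) F → ℂ, IsIrrChar α →
      (fun B : GL (Fin c.s) F => ∑ A : GL (Fin c.s) F, α A *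
        (del (mul c.f c.f) (Par.tl A) (Par.tl B) - 2 * (c.χ A * c.χ B))) = 0 := by
    intro α hα
    apply complete'
    · intro g h
      apply Finset.sum_congr rfl
      intro A _
      have e1 := del_isClass_right hI A g h
      dsimp only at e1
      rw [e1, c.irr.isClass g h]
    · intro β hβ
      have h2 := ip_del (n := c.s + c.s) rfl hα.isClass hβ.isClass
        (inv_mul (dualC c).inv (dualC c).inv)
      rw [dl_sq, hpair α β hα hβ] at h2
      have h3 : ∑ B : GL (Fin c.s) F, β B * ∑ A : GL (Fin c.s) F, α A * (2 * (c.χ A * c.χ B))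
          = 2 * ((∑ A, α A * c.χ A) * ∑ B, β B * c.χ B) := by
        rw [Finset.sum_mul_sum, Finset.sum_comm, Finset.mul_sum]
        apply Finset.sum_congr rfl
        intro B _
        rw [Finset.mul_sum, Finset.mul_sum]
        apply Finset.sum_congr rfl
        intro A _
        ring
      rw [hsum α hα, hsum β hβ] at h3
      have h4 : ∀ B : GL (Fin c.s) F, (∑ A : GL (Fin c.s) F, α A *
          (del (mul c.f c.f) (Par.tl A) (Par.tl B) - 2 * (c.χ A * c.χ B))) * β B
          = β B * ∑ A : GL (Fin c.s) F, α A * del (mul c.f c.f) (Par.tl A) (Par.tl B)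
            - β B * ∑ A : GL (Fin c.s) F, α A * (2 * (c.χ A * c.χ B)) := by
        intro B
        rw [← mul_sub, ← Finset.sum_sub_distrib, mul_comm]
        simp only [mul_sub]
      simp only [h4]
      rw [Finset.sum_sub_distrib, h2, h3]
      split_ifs <;> ring
  have h2 : (fun A : GL (Fin c.s) F =>
      del (mul c.f c.f) (Par.tl A) (Par.tl B) - 2 * (c.χ A * c.χ B)) = 0 := by
    apply complete'
    · intro g h
      have e1 := del_isClass_left hI B g h
      dsimp only at e1 ⊢
      rw [e1, c.irr.isClass g h]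
    · intro α hα
      have h3 := congrFun (h1 α hα) B
      rw [Pi.zero_apply] at h3
      rw [← h3]
      apply Finset.sum_congr rfl
      intro A _
      rw [mul_comm]
  have h3 := congrFun h2 A
  rw [Pi.zero_apply] at h3
  exact sub_eq_zero.mp h3

end Vale.Agent.P275.H495
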