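import Vale.Agent.P275.H341.Rows4

/-!
# The function `eG 4 2 2`
-/

namespace Vale.Agent.P275.H495.Q22

open Finset Vale.Agent.P275.H341

theorem ld_two (a : ℕ → ℂ) (h0 : a 0 = 1) : ld a 2 = 2 * a 2 - a 1 ^ 2 := by
  have hne : PowerSeries.constantCoeff (PowerSeries.mk a) ≠ 0 := by
    rw [← PowerSeries.coeff_zero_eq_constantCoeff_apply, PowerSeries.coeff_mk, h0]
    exact one_ne_zero
  have hb := PowerSeries.mul_inv_cancel (PowerSeries.mk a) hne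
  set b := (PowerSeries.mk a)⁻¹ with hbdef
  have e0 := congrArg (PowerSeries.coeff 0) hb
  have e1 := congrArg (PowerSeries.coeff 1) hb
  rw [PowerSeries.coeff_mul] at e0 e1
  have A0 : antidiagonal 0 = {((0 : ℕ), (0 : ℕ))} := rfl
  have A1 : antidiagonal 1 = {((0 : ℕ), (1 : ℕ)), (1, 0)} := rfl
  have A2 : antidiagonal 2 = {((0 : ℕ), (2 : ℕ)), (1, 1), (2, 0)} := rfl
  rw [A0] at e0
  rw [A1] at e1
  simp [h0] at e0 e1
  unfold ld
  rw [mul_assoc, PowerSeries.coeff_mul, A2]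
  simp [PowerSeries.coeff_X]
  rw [← hbdef, PowerSeries.coeff_mul, A1]
  simp [PowerSeries.coeff_derivative, e0]
  rw [e0] at e1
  have : (PowerSeries.coeff 1) b = - a 1 := by linear_combination e1
  rw [this]
  ring

theorem pt0 : Pt 0 = {![]} := by decide
theorem pt1 : Pt 1 = {![1]} := by decide
theorem pt2 : Pt 2 = {![2, 0], ![1, 1]} := by decide

theorem hk0 (q : ℂ) : hk q (![] : Fin 0 → ℕ) = 1 := by
  simp [hk]

theorem hk1 (q : ℂ) : hk q (![1] : Fin 1 → ℕ) = q - 1 := by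
  simp [hk, Nat.choose]

theorem hk20 (q : ℂ) (hq : q ^ 3 ≠ 1) : hk q (![2, 0] : Fin 2 → ℕ) = (q - 1) * (q ^ 2 - 1) := by
  have h0 : Finset.Ioi (0 : Fin 2) = {1} := by decide
  have h1 : Finset.Ioi (1 : Fin 2) = ∅ := by decide
  have h3 : q ^ 3 - 1 ≠ 0 := sub_ne_zero.mpr hq
  simp only [hk, Fin.prod_univ_two, h0, h1, Finset.prod_singleton, Finset.prod_empty]
  simp [Finset.prod_range_succ, Nat.choose]
  field_simp

theorem hk11 (q : ℂ) (hq0 : q ≠ 0) (hq : q ≠ 1) :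
    hk q (![1, 1] : Fin 2 → ℕ) = (q - 1) * (q ^ 2 - 1) / q := by
  have h0 : Finset.Ioi (0 : Fin 2) = {1} := by decide
  have h1 : Finset.Ioi (1 : Fin 2) = ∅ := by decide
  have h3 : q - 1 ≠ 0 := sub_ne_zero.mpr hq
  have h4 : q ^ 2 - q ≠ 0 := by
    rw [show q ^ 2 - q = q * (q - 1) by ring]
    exact mul_ne_zero hq0 h3
  simp only [hk, Fin.prod_univ_two, h0, h1, Finset.prod_singleton, Finset.prod_empty]
  simp [Finset.prod_range_succ, Nat.choose]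
  rw [div_eq_div_iff h4 hq0]
  ring

theorem om0 (Ψ : ℂ →* ℂ) (q : ℂ) (d e : ℕ) : om Ψ q d e 0 = 1 := by
  unfold om
  rw [pt0, Finset.sum_singleton, hk0, map_one, one_pow]

theorem om1 (q : ℂ) (d e : ℕ) :
    om (powMonoidHom 2) q d e 1 = ((q ^ d - 1) ^ 2) ^ e := by
  unfold om
  rw [pt1, Finset.sum_singleton, hk1]
  rfl

theorem om2 (q : ℂ) (d e : ℕ) (h0 : q ^ d ≠ 0) (h1 : q ^ d ≠ 1) (h3 : (q ^ d) ^ 3 ≠ 1) :
    om (powMonoidHom 2) q d e 2 = ((((q ^ d) - 1) * ((q ^ d) ^ 2 - 1)) ^ 2) ^ e +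
      (((((q ^ d) - 1) * ((q ^ d) ^ 2 - 1)) / (q ^ d)) ^ 2) ^ e := by
  unfold om
  have hne : (![2, 0] : Fin 2 → ℕ) ∉ ({![1, 1]} : Finset (Fin 2 → ℕ)) := by decide
  rw [pt2, Finset.sum_insert hne, Finset.sum_singleton, hk20 _ h3, hk11 _ h0 h1]
  rfl

theorem eG22 (q : ℂ) (h0 : q ≠ 0) (hq : ∀ i : ℕ, 0 < i → q ^ i ≠ 1) :
    eG 4 2 2 q = -2 * q ^ 9 + 2 * q ^ 10 + 6 * q ^ 11 - 8 * q ^ 12 - 4 * q ^ 13 + 6 * q ^ 14
      + 16 * q ^ 15 - 32 * q ^ 16 + 16 * q ^ 17 + 6 * q ^ 18 - 4 * q ^ 19 - 8 * q ^ 20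
      + 6 * q ^ 21 + 2 * q ^ 22 - 2 * q ^ 23 := by
  have hd : (4 : ℕ).divisors = {1, 2, 4} := by decide
  have hm1 : ArithmeticFunction.moebius 1 = 1 := by simp
  have hm2 : ArithmeticFunction.moebius 2 = -1 :=
    ArithmeticFunction.moebius_apply_prime Nat.prime_two
  have hm4 : ArithmeticFunction.moebius 4 = 0 := by
    apply ArithmeticFunction.moebius_eq_zero_of_not_squarefree
    intro h
    have := h 2 ⟨1, rfl⟩
    simp at this
  unfold eG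
  rw [hd]
  have hs : ({1, 2, 4} : Finset ℕ) = insert 1 (insert 2 {4}) := rfl
  rw [Finset.sum_insert (by decide), Finset.sum_insert (by decide), Finset.sum_singleton,
    hm1, hm2, hm4]
  have g1 : Nat.gcd 2 1 = 1 := by decide
  have g2 : Nat.gcd 2 2 = 2 := by decide
  have l1 : Nat.lcm 2 1 = 2 := by decide
  have l2 : Nat.lcm 2 2 = 2 := by decide
  rw [g1, g2, l1, l2]
  norm_num only
  rw [ld_two _ (om0 _ _ _ _), ld_two _ (om0 _ _ _ _), om1, om1,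
    om2 _ _ _ (pow_ne_zero _ h0) (hq 1 one_pos) (by rw [← pow_mul]; exact hq _ (by norm_num)),
    om2 _ _ _ (pow_ne_zero _ h0) (hq 2 two_pos) (by rw [← pow_mul]; exact hq _ (by norm_num))]
  field_simp
  ring

end Vale.Agent.P275.H495.Q22
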