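import Vale.Agent.P275.H341.All
import Vale.Agent.P275.H495.Q22a

/-!
# The weights 18 and 20 of the isotypic part for `n = 4`, `m = 2`, `g = 2`
-/

namespace Vale.Agent.P275.H495.Q22

open scoped BigOperators MatrixGroups
open Finset Module Matrix Vale.Agent.P275.H85 Vale.Agent.P275.H341

theorem count22 (h : ℕ → ℕ → ℕ)
    (H : ∀ (F : Type) [Field F] [Fintype F] [DecidableEq F], 8 ∣ Fintype.card F - 1 →
      ∃ (ζ : Fˣ) (κ κ' : Fin 2 → (Fˣ →* ℂˣ)), orderOf ζ = 4 ∧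
        orderOf (fun i => (κ i, κ' i)) = 2 ∧
        commSum F 4 2 ζ κ κ' = ((Fintype.card F : ℂ) - 1) ^ 3 *
          (Fintype.card (GL (Fin 4) F) : ℂ) *
          ∑ k ∈ Finset.range 31, ∑ w ∈ Finset.range (2 * k + 1), (-1) ^ k * (h k w : ℂ) *
            ((Real.sqrt (Fintype.card F) : ℝ) : ℂ) ^ (60 - w))
    (p : ℕ) (hp : p.Prime) (hp1 : p ≡ 1 [MOD 8]) :
    ((p : ℂ) - 1) ^ 2 *
      ∑ k ∈ Finset.range 31, ∑ w ∈ Finset.range (2 * k + 1), (-1) ^ k * (h k w : ℂ) *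
        ((Real.sqrt p : ℝ) : ℂ) ^ (60 - w) = eG 4 2 2 p := by
  have : Fact p.Prime := ⟨hp⟩
  have hcard : Fintype.card (ZMod p) = p := ZMod.card p
  have hdiv : 8 ∣ Fintype.card (ZMod p) - 1 := by
    rw [hcard]
    exact (Nat.modEq_iff_dvd' hp.one_le).mp hp1.symm
  obtain ⟨ζ, κ, κ', hζ, hκ, hc⟩ := H (ZMod p) hdiv
  have hdiv2 : 2 * 2 ∣ Fintype.card (ZMod p) - 1 := dvd_trans (by norm_num) hdiv
  have hpow := pow_orderOf_eq_one (fun i => (κ i, κ' i))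
  rw [hκ] at hpow
  have hneg : ∀ i, κ i (-1) = 1 ∧ κ' i (-1) = 1 := by
    intro i
    have h1 := congrFun hpow i
    have h2 : (κ i) ^ 2 = 1 := congrArg Prod.fst h1
    have h3 : (κ' i) ^ 2 = 1 := congrArg Prod.snd h1
    exact ⟨neg_one_of_pow hdiv2 _ h2, neg_one_of_pow hdiv2 _ h3⟩
  rw [count_all (by norm_num) (by norm_num) (by norm_num) ζ hζ κ κ' hκ hneg] at hc
  have hne : ((Fintype.card (ZMod p) : ℂ) - 1) *
      (Fintype.card (GL (Fin 4) (ZMod p)) : ℂ) ≠ 0 := by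
    apply mul_ne_zero
    · rw [hcard, sub_ne_zero]
      exact_mod_cast hp.one_lt.ne'
    · exact_mod_cast Fintype.card_ne_zero
  have hc' : ((Fintype.card (ZMod p) : ℂ) - 1) *
      (Fintype.card (GL (Fin 4) (ZMod p)) : ℂ) * eG 4 2 2 (Fintype.card (ZMod p))
      = ((Fintype.card (ZMod p) : ℂ) - 1) *
      (Fintype.card (GL (Fin 4) (ZMod p)) : ℂ) *
      (((Fintype.card (ZMod p) : ℂ) - 1) ^ 2 *
        ∑ k ∈ Finset.range 31, ∑ w ∈ Finset.range (2 * k + 1), (-1) ^ k * (h k w : ℂ) *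
            ((Real.sqrt (Fintype.card (ZMod p)) : ℝ) : ℂ) ^ (60 - w)) := by
    rw [hc]
    ring
  have hc2 := mul_left_cancel₀ hne hc'
  rw [hcard] at hc2
  exact hc2.symm

/-- the polynomial of the counts -/
noncomputable def PP (h : ℕ → ℕ → ℕ) : Polynomial ℂ :=
  ∑ k ∈ Finset.range 31, ∑ w ∈ Finset.range (2 * k + 1),
    Polynomial.monomial (60 - w) ((-1) ^ k * (h k w : ℂ))

theorem PP_coeff (h : ℕ → ℕ → ℕ) (h0 : ∀ k w, h k w ≠ 0 → k ≤ w ∧ w ≤ 2 * k) (v : ℕ)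
    (hv : v ≤ 60) :
    (PP h).coeff (60 - v) = ∑ k ∈ Finset.range 31, (-1) ^ k * (h k v : ℂ) := by
  unfold PP
  rw [Polynomial.finsetSum_coeff]
  refine Finset.sum_congr rfl fun k hk => ?_
  rw [Polynomial.finsetSum_coeff]
  have hk' : k ≤ 30 := by
    have := Finset.mem_range.mp hk
    omega
  rw [Finset.sum_eq_single v]
  · rw [Polynomial.coeff_monomial, if_pos rfl]
  · intro w hw hne
    have hw' := Finset.mem_range.mp hw
    rw [Polynomial.coeff_monomial, if_neg]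
    omega
  · intro hv'
    have : h k v = 0 := by
      by_contra hh
      have := h0 k v hh
      exact hv' (Finset.mem_range.mpr (by omega))
    rw [this]
    simp

theorem sum_low (h : ℕ → ℕ → ℕ) (h0 : ∀ k w, h k w ≠ 0 → k ≤ w ∧ w ≤ 2 * k)
    (h1 : ∀ k w, k ≤ 16 → h k w = 0) (v : ℕ) (hv : v ≤ 16) :
    ∑ k ∈ Finset.range 31, (-1) ^ k * (h k v : ℂ) = 0 := by
  refine Finset.sum_eq_zero fun k _ => ?_
  have : h k v = 0 := by
    by_contra hh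
    have h2 := h0 k v hh
    exact hh (h1 k v (by omega))
  rw [this]
  simp

open Polynomial in
theorem poly22 (h : ℕ → ℕ → ℕ)
    (H : ∀ p : ℕ, p.Prime → p ≡ 1 [MOD 8] → ((p : ℂ) - 1) ^ 2 *
      ∑ k ∈ Finset.range 31, ∑ w ∈ Finset.range (2 * k + 1), (-1) ^ k * (h k w : ℂ) *
        ((Real.sqrt p : ℝ) : ℂ) ^ (60 - w) = eG 4 2 2 p) :
    (X ^ 2 - 1) ^ 2 * PP h = C (-2) * X ^ 18 + C 2 * X ^ 20 + C 6 * X ^ 22 - C 8 * X ^ 24
      - C 4 * X ^ 26 + C 6 * X ^ 28 + C 16 * X ^ 30 - C 32 * X ^ 32 + C 16 * X ^ 34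
      + C 6 * X ^ 36 - C 4 * X ^ 38 - C 8 * X ^ 40 + C 6 * X ^ 42 + C 2 * X ^ 44
      - C 2 * X ^ 46 := by
  apply poly_eq_of_primes (k := 8) (by norm_num)
  intro p hp hp1
  have hH := H p hp hp1
  have hx : (((Real.sqrt p : ℝ) : ℂ)) ^ 2 = (p : ℂ) := by
    rw [← Complex.ofReal_pow, Real.sq_sqrt (Nat.cast_nonneg p)]
    simp
  have hp0 : (p : ℂ) ≠ 0 := by exact_mod_cast hp.ne_zero
  have hpi : ∀ i : ℕ, 0 < i → (p : ℂ) ^ i ≠ 1 := by
    intro i hi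
    have := Nat.one_lt_pow hi.ne' hp.one_lt
    exact_mod_cast this.ne'
  rw [eG22 _ hp0 hpi] at hH
  have hPP : (PP h).eval ((Real.sqrt p : ℝ) : ℂ) =
      ∑ k ∈ Finset.range 31, ∑ w ∈ Finset.range (2 * k + 1), (-1) ^ k * (h k w : ℂ) *
        ((Real.sqrt p : ℝ) : ℂ) ^ (60 - w) := by
    unfold PP
    simp only [eval_finsetSum, eval_monomial]
  rw [← hPP] at hH
  simp only [eval_mul, eval_pow, eval_sub, eval_add, eval_X, eval_one, eval_C]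
  generalize (PP h).eval ((Real.sqrt p : ℝ) : ℂ) = y at hH ⊢
  generalize ((Real.sqrt p : ℝ) : ℂ) = x at hx ⊢
  rw [← hx] at hH
  linear_combination hH

open Polynomial in
theorem coeffs (h : ℕ → ℕ → ℕ) (h0 : ∀ k w, h k w ≠ 0 → k ≤ w ∧ w ≤ 2 * k)
    (h1 : ∀ k w, k ≤ 16 → h k w = 0)
    (H : ∀ p : ℕ, p.Prime → p ≡ 1 [MOD 8] → ((p : ℂ) - 1) ^ 2 *
      ∑ k ∈ Finset.range 31, ∑ w ∈ Finset.range (2 * k + 1), (-1) ^ k * (h k w : ℂ) *
        ((Real.sqrt p : ℝ) : ℂ) ^ (60 - w) = eG 4 2 2 p) :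
    ∑ k ∈ Finset.range 31, (-1) ^ k * (h k 18 : ℂ) = -2 ∧
    ∑ k ∈ Finset.range 31, (-1) ^ k * (h k 20 : ℂ) = -2 := by
  have key := poly22 h H
  have hexp : (X ^ 2 - 1) ^ 2 * PP h = PP h * X ^ 4 - C 2 * (PP h * X ^ 2) + PP h := by
    have : (C 2 : Polynomial ℂ) = 2 := by
      rw [show (2 : ℂ) = 1 + 1 by norm_num, C_add, C_1]
      norm_num
    rw [this]
    ring
  rw [hexp] at key
  have a42 := PP_coeff h h0 18 (by norm_num)
  have a40 := PP_coeff h h0 20 (by norm_num)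
  have a44 := PP_coeff h h0 16 (by norm_num)
  have a46 := PP_coeff h h0 14 (by norm_num)
  rw [sum_low h h0 h1 16 (by norm_num)] at a44
  rw [sum_low h h0 h1 14 (by norm_num)] at a46
  norm_num only at a42 a40 a44 a46
  have k46 := congrArg (fun P => Polynomial.coeff P 46) key
  have k44 := congrArg (fun P => Polynomial.coeff P 44) key
  have m1 : (PP h * X ^ 4).coeff 46 = (PP h).coeff 42 := coeff_mul_X_pow (PP h) 4 42
  have m2 : (PP h * X ^ 2).coeff 46 = (PP h).coeff 44 := coeff_mul_X_pow (PP h) 2 44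
  have m3 : (PP h * X ^ 4).coeff 44 = (PP h).coeff 40 := coeff_mul_X_pow (PP h) 4 40
  have m4 : (PP h * X ^ 2).coeff 44 = (PP h).coeff 42 := coeff_mul_X_pow (PP h) 2 42
  simp only [coeff_add, coeff_sub, coeff_C_mul, m1, m2, m3, m4, a44, a46, coeff_X_pow] at k46 k44
  norm_num at k46 k44
  rw [a42] at k46 k44
  rw [a40] at k44
  refine ⟨?_, ?_⟩
  · linear_combination k46
  · linear_combination k44 + 2 * k46

theorem rowQ22 (h : ℕ → ℕ → ℕ) (h0 : ∀ k w, h k w ≠ 0 → k ≤ w ∧ w ≤ 2 * k)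
    (h1 : ∀ k w, k ≤ 16 → h k w = 0)
    (H : ∀ (F : Type) [Field F] [Fintype F] [DecidableEq F], 8 ∣ Fintype.card F - 1 →
      ∃ (ζ : Fˣ) (κ κ' : Fin 2 → (Fˣ →* ℂˣ)), orderOf ζ = 4 ∧
        orderOf (fun i => (κ i, κ' i)) = 2 ∧
        commSum F 4 2 ζ κ κ' = ((Fintype.card F : ℂ) - 1) ^ 3 *
          (Fintype.card (GL (Fin 4) F) : ℂ) *
          ∑ k ∈ Finset.range 31, ∑ w ∈ Finset.range (2 * k + 1), (-1) ^ k * (h k w : ℂ) *
            ((Real.sqrt (Fintype.card F) : ℝ) : ℂ) ^ (60 - w)) :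
    ∑ k ∈ Finset.range 31, (-1 : ℤ) ^ k * h k 18 = -2 ∧
    ∑ k ∈ Finset.range 31, (-1 : ℤ) ^ k * h k 20 = -2 := by
  obtain ⟨c1, c2⟩ := coeffs h h0 h1 (count22 h H)
  constructor
  · have : ((∑ k ∈ Finset.range 31, (-1 : ℤ) ^ k * h k 18 : ℤ) : ℂ) = ((-2 : ℤ) : ℂ) := by
      push_cast
      exact c1
    exact_mod_cast this
  · have : ((∑ k ∈ Finset.range 31, (-1 : ℤ) ^ k * h k 20 : ℤ) : ℂ) = ((-2 : ℤ) : ℂ) := by
      push_cast
      exact c2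
    exact_mod_cast this

end Vale.Agent.P275.H495.Q22
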