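import Vale.Agent.P275.H341.Rows

/-!
# The square of a cuspidal character, part A
-/

set_option linter.style.haveILetI false
set_option linter.unusedSectionVars false

namespace Vale.Agent.P275.H495

open scoped BigOperators MatrixGroups
open Module Matrix Vale.Agent.P275.H85 Vale.Agent.P275.H341

section gen

variable {G : Type} [Group G] [Fintype G]

/-- a positive function of norm `2` is a sum of two different irreducible characters -/
theorem two_irr {f : G → ℂ} (hf : Pos f) (h : ip f f = 2) :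
    ∃ X Y : G → ℂ, IsIrrChar X ∧ IsIrrChar Y ∧ X ≠ Y ∧ f = X + Y := by
  classical
  obtain ⟨n, hn, hn'⟩ := hf.expandN
  have h2 := ip_expand f f hf.1
  rw [h] at h2
  have h3 : ∑ χ ∈ irrSet G, n χ * n χ = 2 := by
    have : ((∑ χ ∈ irrSet G, n χ * n χ : ℕ) : ℂ) = 2 := by
      rw [h2]
      push_cast
      apply Finset.sum_congr rfl
      intro χ hχ
      rw [hn' χ (mem_irrSet.mp hχ)]
    exact_mod_cast this
  have h4 : ∀ χ ∈ irrSet G, n χ ≤ 1 := by
    intro χ hχ
    by_contra hc
    push Not at hc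
    have h5 := Finset.single_le_sum (f := fun χ => n χ * n χ) (fun _ _ => Nat.zero_le _) hχ
    rw [h3] at h5
    nlinarith
  have h5 : ∀ χ ∈ irrSet G, n χ * n χ = if n χ = 1 then 1 else 0 := by
    intro χ hχ
    have h6 := h4 χ hχ
    by_cases h7 : n χ = 1
    · rw [if_pos h7, h7]
    · have h8 : n χ = 0 := by omega
      rw [if_neg h7, h8]
  have h6 : ((irrSet G).filter (fun χ => n χ = 1)).card = 2 := by
    rw [Finset.card_filter, ← h3]
    exact (Finset.sum_congr rfl h5).symm
  obtain ⟨X, Y, hXY, hS⟩ := Finset.card_eq_two.mp h6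
  have hX : X ∈ (irrSet G).filter (fun χ => n χ = 1) := by rw [hS]; simp
  have hY : Y ∈ (irrSet G).filter (fun χ => n χ = 1) := by rw [hS]; simp
  refine ⟨X, Y, mem_irrSet.mp (Finset.mem_filter.mp hX).1,
    mem_irrSet.mp (Finset.mem_filter.mp hY).1, hXY, ?_⟩
  rw [hn]
  have h7 : ∀ χ ∈ irrSet G, (n χ : ℂ) • χ = if n χ = 1 then χ else 0 := by
    intro χ hχ
    have h6 := h4 χ hχ
    by_cases h7 : n χ = 1
    · rw [if_pos h7, h7]
      simp
    · have h8 : n χ = 0 := by omega
      rw [if_neg h7, h8]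
      simp
  rw [Finset.sum_congr rfl h7, ← Finset.sum_filter, hS, Finset.sum_pair hXY]

theorem IsClass.sub {f g : G → ℂ} (hf : IsClass f) (hg : IsClass g) : IsClass (f - g) := by
  intro x y
  rw [Pi.sub_apply, Pi.sub_apply, hf, hg]

theorem ip_sub_right (f g g' : G → ℂ) : ip f (g - g') = ip f g - ip f g' := by
  rw [ip_comm, ip_sub_left, ip_comm g, ip_comm g']

theorem ip_add_right (f g g' : G → ℂ) : ip f (g + g') = ip f g + ip f g' := by
  rw [ip_comm, ip_add_left, ip_comm g, ip_comm g']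

end gen

variable {F : Type} [Field F] [Fintype F] [DecidableEq F]

/-- a class function orthogonal to all properly induced characters is cuspidal -/
theorem cuspB_of {n : ℕ} {D : GL (Fin n) F → ℂ} (hD : IsClass D)
    (h : ∀ (e m : ℕ), m + e = n → 0 < e → 0 < m → ∀ (α : GL (Fin e) F → ℂ)
      (β : GL (Fin m) F → ℂ), IsIrrChar α → IsIrrChar β →
      ip (rs n (mul (toCF α) (toCF β))) D = 0) : CuspB (toCF D) := by
  have key : ∀ (e m : ℕ), m + e = n → 0 < e → 0 < m → ∀ (a : (Fin e → F) →ₗ[F] (Fin e → F))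
      (x : (Fin m → F) →ₗ[F] (Fin m → F)), del (dl (toCF D)) a x = 0 := by
    intro e m hn he hm a x
    have hI := inv_dl (inv_toCF hD)
    have hS : Supp n (dl (toCF D)) := supp_dl (supp_toCF D)
    by_cases ha : IsUnit a
    swap
    · exact del_not hS (Or.inl ha)
    by_cases hx : IsUnit x
    swap
    · exact del_not hS (Or.inr hx)
    obtain ⟨A, rfl⟩ := exists_tl ha
    obtain ⟨B, rfl⟩ := exists_tl hx
    apply del_zero_of hI
    intro α hα
    apply complete' _ (isClass_rs (inv_Dop hI))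
    intro β hβ
    have h2 := h e m hn he hm α β hα hβ
    have h3 := ip_mul (inv_toCF hα.isClass) (inv_toCF hβ.isClass) (inv_toCF hD)
      (supp_toCF α) (supp_toCF β) hn
    rw [rs_toCF hD, h2, rs_toCF hβ.isClass] at h3
    have c1 : (Fintype.card (GL (Fin e) F) : ℂ)⁻¹ ≠ 0 := inv_ne_zero Irr.card_ne
    have c2 : (Fintype.card (GL (Fin m) F) : ℂ)⁻¹ ≠ 0 := inv_ne_zero Irr.card_ne
    have h4 := (mul_eq_zero.mp h3.symm).resolve_left c1
    have h5 := (mul_eq_zero.mp h4).resolve_left c2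
    rw [← h5]
    apply Finset.sum_congr rfl
    intro y _
    rw [mul_comm]
  have h8 : CuspB (dl (toCF D)) := by
    intro V E _ _ _ _ _ _ hV hE a x
    by_cases hn : finrank F (V × E) = n
    · rw [Module.finrank_prod] at hn
      have h9 := key (finrank F E) (finrank F V) hn finrank_pos finrank_pos
      let e1 : V ≃ₗ[F] (Fin (finrank F V) → F) := LinearEquiv.ofFinrankEq _ _ (by simp)
      let e2 : E ≃ₗ[F] (Fin (finrank F E) → F) := LinearEquiv.ofFinrankEq _ _ (by simp)
      have h10 := del_iso (inv_dl (inv_toCF hD)) e1 e2 (a := a) (x := x)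
        (a' := e2.conj a) (x' := e1.conj x)
        (fun v => by rw [LinearEquiv.conj_apply_apply, LinearEquiv.symm_apply_apply])
        (fun v => by rw [LinearEquiv.conj_apply_apply, LinearEquiv.symm_apply_apply])
      rw [h9] at h10
      unfold del at h10
      exact (mul_eq_zero.mp h10).resolve_left (inv_ne_zero (by
        exact_mod_cast (Fintype.card_ne_zero : Fintype.card (V →ₗ[F] E) ≠ 0)))
    · apply Finset.sum_eq_zero
      intro X _
      exact supp_dl (supp_toCF D) _ _ (Or.inl hn)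
  have h11 := cusp_dl h8
  have h12 : dl (dl (toCF D)) = toCF D := CF_ext (dl_dl (supp_toCF D))
  rwa [h12] at h11

theorem pair_sq (c : Cu F) : pair [c, c] [c, c] = 2 := by
  classical
  have h1 : pair [c] [c] = 1 := pair_nodup [c] (List.nodup_singleton c) [c] (List.Perm.refl _)
  rw [pair_cons]
  have h2 : ∀ i : Fin [c, c].length,
      (if c = [c, c].get i then pair [c] ([c, c].eraseIdx i) else 0) = 1 := by
    intro i
    match i with
    | ⟨0, _⟩ => 
      show (if c = c then pair [c] [c] else 0) = 1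
      rw [if_pos rfl, h1]
    | ⟨1, _⟩ => 
      show (if c = c then pair [c] [c] else 0) = 1
      rw [if_pos rfl, h1]
  rw [Finset.sum_congr rfl (fun i _ => h2 i)]
  simp

theorem prodC_two (c : Cu F) : prodC [c, c] = mul c.f c.f := by
  show mul c.f (mul c.f one) = mul c.f c.f
  rw [CF_mul_one c.inv]

theorem ip_sq (c : Cu F) : ip (rs (c.s + c.s) (mul c.f c.f)) (rs (c.s + c.s) (mul c.f c.f)) = 2 := by
  have h := pair_sq c
  unfold pair at h
  rw [prodC_two] at h
  have h2 : size [c, c] = c.s + c.s := by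
    show 0 + c.s + c.s = c.s + c.s
    omega
  rw [h2] at h
  exact h

theorem pos_sq (c : Cu F) : Pos (rs (c.s + c.s) (mul c.f c.f)) :=
  pos_mul_irr rfl c.irr c.irr

/-- both factors of a product meeting `c^2` are `c` -/
theorem factors {c : Cu F} {e m : ℕ} (hn : m + e = c.s + c.s) (he : 0 < e) (hm : 0 < m)
    {α : GL (Fin e) F → ℂ} {β : GL (Fin m) F → ℂ} (hα : IsIrrChar α) (hβ : IsIrrChar β)
    {X : GL (Fin (c.s + c.s)) F → ℂ} (hX : IsIrrChar X)
    (h1 : ip (rs (c.s + c.s) (mul (toCF α) (toCF β))) X ≠ 0)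
    (h2 : ip (rs (c.s + c.s) (mul c.f c.f)) X ≠ 0) :
    toCF α = c.f ∧ toCF β = c.f := by
  classical
  obtain ⟨L, hL, hL'⟩ := exists_support e he α hα
  obtain ⟨M, hM, hM'⟩ := exists_support m hm β hβ
  have h3 : ip (rs (c.s + c.s) (prodC (L ++ M))) X ≠ 0 := by
    subst hL hM
    rw [prodC_append]
    have := con_mul hn (pos_prodC L) (pos_prodC M) hα hβ hX hL' hM' h1
    rwa [toCF_rs' (inv_prodC L) (supp_prodC L), toCF_rs' (inv_prodC M) (supp_prodC M)] at this
  have hsz : size (L ++ M) = c.s + c.s := by rw [size_append, hL, hM, hn]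
  have hsz2 : size [c, c] = c.s + c.s := by
    show 0 + c.s + c.s = c.s + c.s
    omega
  have hP : Pos (rs (c.s + c.s) (prodC (L ++ M))) := by
    rw [← hsz]; exact pos_prodC _
  have h4 := pos_common hP (pos_sq c) hX h3 h2
  have h5 : (L ++ M).Perm [c, c] := by
    apply perm_of_pair
    unfold pair
    rw [hsz, prodC_two]
    exact h4
  have hlen := h5.length_eq
  rw [List.length_append] at hlen
  have hall : ∀ x ∈ L ++ M, x = c := by
    intro x hx
    have := h5.subset hx
    simpa using this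
  have hL0 : L ≠ [] := by
    rintro rfl
    have : (0 : ℕ) = e := hL
    omega
  have hM0 : M ≠ [] := by
    rintro rfl
    have : (0 : ℕ) = m := hM
    omega
  have hL1 : L.length = 1 := by
    have a1 := List.length_pos_of_ne_nil hL0
    have a2 := List.length_pos_of_ne_nil hM0
    simp only [List.length_cons, List.length_nil] at hlen
    omega
  have hM1 : M.length = 1 := by
    have a1 := List.length_pos_of_ne_nil hL0
    have a2 := List.length_pos_of_ne_nil hM0
    simp only [List.length_cons, List.length_nil] at hlen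
    omega
  obtain ⟨x, rfl⟩ := List.length_eq_one_iff.mp hL1
  obtain ⟨y, rfl⟩ := List.length_eq_one_iff.mp hM1
  have hx : x = c := hall x (by simp)
  have hy : y = c := hall y (by simp)
  subst hx
  subst hy
  have hs1 : y.s = e := by
    have : 0 + y.s = e := hL
    omega
  have hs2 : y.s = m := by
    have : 0 + y.s = m := hM
    omega
  subst hs1
  have e1 : prodC [y] = y.f := CF_mul_one y.inv
  rw [e1] at hL' hM'
  constructor
  · rw [y.rs_f, ip_irr y.irr hα] at hL'
    have : y.χ = α := by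
      by_contra hc
      rw [if_neg hc] at hL'
      exact hL' rfl
    rw [← this]
    rfl
  · subst hs2
    rw [y.rs_f, ip_irr y.irr hβ] at hM'
    have : y.χ = β := by
      by_contra hc
      rw [if_neg hc] at hM'
      exact hM' rfl
    rw [← this]
    rfl

/-- the difference of the two constituents is cuspidal -/
theorem cusp_diff {c : Cu F} {X Y : GL (Fin (c.s + c.s)) F → ℂ} (hX : IsIrrChar X)
    (hY : IsIrrChar Y) (hXY : X ≠ Y) (hP : rs (c.s + c.s) (mul c.f c.f) = X + Y) :
    CuspB (toCF (X - Y)) := by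
  classical
  have iX : ip (rs (c.s + c.s) (mul c.f c.f)) X = 1 := by
    rw [hP, ip_add_left, ip_irr hX hX, ip_irr hY hX, if_pos rfl, if_neg hXY.symm, add_zero]
  have iY : ip (rs (c.s + c.s) (mul c.f c.f)) Y = 1 := by
    rw [hP, ip_add_left, ip_irr hX hY, ip_irr hY hY, if_pos rfl, if_neg hXY, zero_add]
  apply cuspB_of (IsClass.sub hX.isClass hY.isClass)
  intro e m hn he hm α β hα hβ
  rw [ip_sub_right]
  by_cases h1 : ip (rs (c.s + c.s) (mul (toCF α) (toCF β))) X = 0
  · by_cases h2 : ip (rs (c.s + c.s) (mul (toCF α) (toCF β))) Y = 0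
    · rw [h1, h2, sub_zero]
    · obtain ⟨h3, h4⟩ := factors hn he hm hα hβ hY h2 (by rw [iY]; exact one_ne_zero)
      rw [h3, h4, iX, iY, sub_self]
  · obtain ⟨h3, h4⟩ := factors hn he hm hα hβ hX h1 (by rw [iX]; exact one_ne_zero)
    rw [h3, h4, iX, iY, sub_self]

theorem ez_sub {n : ℕ} (X Y : GL (Fin n) F → ℂ) (A : Matrix (Fin n) (Fin n) F) :
    ez (X - Y) A = ez X A - ez Y A := by
  unfold ez
  split_ifs <;> simp

theorem ez_add {n : ℕ} (X Y : GL (Fin n) F → ℂ) (A : Matrix (Fin n) (Fin n) F) :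
    ez (X + Y) A = ez X A + ez Y A := by
  unfold ez
  split_ifs <;> simp

theorem whit_sub {n : ℕ} (ψ : AddChar F ℂ) (X Y : GL (Fin n) F → ℂ) :
    whit ψ (X - Y) = whit ψ X - whit ψ Y := by
  unfold whit
  rw [← mul_sub, ← Finset.sum_sub_distrib]
  congr 1
  apply Finset.sum_congr rfl
  intro A _
  rw [ez_sub, mul_sub]

theorem whit_add {n : ℕ} (ψ : AddChar F ℂ) (X Y : GL (Fin n) F → ℂ) :
    whit ψ (X + Y) = whit ψ X + whit ψ Y := by
  unfold whit
  rw [← mul_add, ← Finset.sum_add_distrib]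
  congr 1
  apply Finset.sum_congr rfl
  intro A _
  rw [ez_add, mul_add]

theorem deg_sq (c : Cu F) : rs (c.s + c.s) (mul c.f c.f) 1 *
    ((Fintype.card F : ℂ) ^ (Nat.choose (c.s + c.s) 2) * ((Fintype.card F : ℂ) ^ c.s - 1) ^ 2)
      = Fintype.card (GL (Fin (c.s + c.s)) F) := by
  have h := (degree_list (s := c.s) [c, c] (by
    intro x hx
    have : x = c := by simpa using hx
    subst this
    exact ⟨rfl, deg_cusp pkgC1 pkgC2 x⟩)).2
  have h2 : size [c, c] = c.s + c.s := by
    show 0 + c.s + c.s = c.s + c.s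
    omega
  rw [prodC_two, h2] at h
  exact h

/-- Row SQ from the multiplicity of the generic character in `c^2` -/
theorem rsq_of (hw : ∀ (F : Type) [Field F] [Fintype F] [DecidableEq F] (ψ : AddChar F ℂ),
    ψ ≠ 1 → ∀ c : Cu F, whit ψ (rs (c.s + c.s) (mul c.f c.f)) = 1) : RSq := by
  intro F _ _ _ c
  obtain ⟨ψ, hψ⟩ := exists_addChar F
  obtain ⟨X, Y, hX, hY, hXY, hP, hd⟩ : ∃ X Y : GL (Fin (c.s + c.s)) F → ℂ, IsIrrChar X ∧
      IsIrrChar Y ∧ X ≠ Y ∧ rs (c.s + c.s) (mul c.f c.f) = X + Y ∧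
      whit ψ X - whit ψ Y = 1 := by
    obtain ⟨X, Y, hX, hY, hXY, hP⟩ := two_irr (pos_sq c) (ip_sq c)
    have h1 := hw F ψ hψ c
    rw [hP, whit_add] at h1
    rcases pkgC2 F _ ψ hψ X hX with hx | hx <;> rcases pkgC2 F _ ψ hψ Y hY with hy | hy
    · exfalso
      rw [hx, hy] at h1
      norm_num at h1
    · refine ⟨Y, X, hY, hX, hXY.symm, hP.trans (add_comm X Y), ?_⟩
      rw [hx, hy, sub_zero]
    · refine ⟨X, Y, hX, hY, hXY, hP, ?_⟩
      rw [hx, hy, sub_zero]
    · exfalso
      rw [hx, hy] at h1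
      norm_num at h1
  have hcl := IsClass.sub hX.isClass hY.isClass
  have hc : 1 ≤ c.s + c.s := by
    have := c.pos
    omega
  have hb := pkgC1 F (c.s + c.s) hc ψ hψ (X - Y) hcl
    (cusp_matrix hcl (cusp_diff hX hY hXY hP))
  rw [whit_sub, hd, mul_one, Pi.sub_apply] at hb
  have ha := deg_sq c
  rw [hP, Pi.add_apply] at ha
  have hg := card_gl_prod (F := F) (c.s + c.s)
  rw [Finset.prod_Ico_succ_top hc, ← hb] at hg
  have hQ : (Fintype.card F : ℂ) ^ (c.s + c.s) = ((Fintype.card F : ℂ) ^ c.s) ^ 2 := by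
    rw [← pow_mul]
    congr 1
    omega
  have hQ2 : (Fintype.card F : ℂ) ^ (2 * c.s) = ((Fintype.card F : ℂ) ^ c.s) ^ 2 := by
    rw [← pow_mul]
    congr 1
    omega
  rw [hQ] at hg
  refine ⟨X, Y, hX, hY, hXY, hP, ?_, ?_⟩
  · rw [hQ2]
    linear_combination (1 / 2 : ℂ) * (((Fintype.card F : ℂ) ^ c.s + 1) * ha
      - ((Fintype.card F : ℂ) ^ c.s - 1) * hg)
  · rw [hQ2]
    linear_combination (1 / 2 : ℂ) * (((Fintype.card F : ℂ) ^ c.s + 1) * ha
      + ((Fintype.card F : ℂ) ^ c.s - 1) * hg)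

end Vale.Agent.P275.H495
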